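import Vale.Agent.P011.H672.Conic3
import Vale.Agent.P011.Arith.SUnit

/-!
A family of elements of a cubic extension, without common zero of the conjugates: units at almost
all places without a point, and the choice of the parameter.
-/

open NumberField IsDedekindDomain Polynomial Module

namespace Vale.Agent.P011.H672

open Vale.Agent.P011.Arith (Z0 Pl plAbv plAbv_lt approx nonempty_prime)

section coord

variable {k F : Type} [Field k] [Field F] [Algebra k F]

/-- The coordinates of a polynomial over the extension. -/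
noncomputable def cp (b : Basis (Fin 3) k F) (a : F[X]) (m : ℕ) (j : Fin 3) : k[X] :=
  ∑ i ∈ Finset.range (m + 1), C (b.repr (a.coeff i) j) * X ^ i

/-- The coordinates of the reversed polynomial. -/
noncomputable def cr (b : Basis (Fin 3) k F) (a : F[X]) (m : ℕ) (j : Fin 3) : k[X] :=
  ∑ i ∈ Finset.range (m + 1), C (b.repr (a.coeff i) j) * X ^ (m - i)

variable {b : Basis (Fin 3) k F} {a : F[X]} {m : ℕ}

theorem eval_map_eq {Ω : Type} [Field Ω] [Algebra k Ω] (ham : a.natDegree ≤ m) (σ : F →ₐ[k] Ω)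
    (t : Ω) : (a.map (σ : F →+* Ω)).eval t = ∑ j, aeval t (cp b a m j) * σ (b j) := by
  have h1 : (a.map (σ : F →+* Ω)).natDegree ≤ m := natDegree_map_le.trans ham
  rw [eval_eq_sum_range' (Nat.lt_succ_of_le h1)]
  have h2 : ∀ j, aeval t (cp b a m j) * σ (b j) =
      ∑ i ∈ Finset.range (m + 1), (algebraMap k Ω (b.repr (a.coeff i) j) * σ (b j)) * t ^ i := by
    intro j
    rw [cp, map_sum, Finset.sum_mul]
    refine Finset.sum_congr rfl fun i _ => ?_
    simp only [map_mul, map_pow, aeval_C, aeval_X]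
    ring
  rw [Finset.sum_congr rfl fun j _ => h2 j, Finset.sum_comm]
  refine Finset.sum_congr rfl fun i _ => ?_
  rw [← Finset.sum_mul, coeff_map]
  congr 1
  conv_lhs => rw [← b.sum_repr (a.coeff i)]
  rw [RingHom.coe_coe, map_sum]
  refine Finset.sum_congr rfl fun j _ => ?_
  rw [map_smul, Algebra.smul_def]

theorem eval_eq (ham : a.natDegree ≤ m) (t : k) :
    a.eval (algebraMap k F t) = ∑ j, (cp b a m j).eval t • b j := by
  have h := eval_map_eq (b := b) ham (AlgHom.id k F) (algebraMap k F t)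
  have h1 : a.map ((AlgHom.id k F : F →ₐ[k] F) : F →+* F) = a := by
    change a.map (RingHom.id F) = a
    rw [Polynomial.map_id]
  rw [h1] at h
  rw [h]
  refine Finset.sum_congr rfl fun j _ => ?_
  rw [aeval_algebraMap_apply, coe_aeval_eq_eval, Algebra.smul_def]
  rfl

theorem aeval_cr {Ω : Type} [Field Ω] [Algebra k Ω] {s : Ω} (hs : s ≠ 0) (j : Fin 3) :
    aeval s (cr b a m j) = s ^ m * aeval s⁻¹ (cp b a m j) := by
  rw [cr, cp, map_sum, map_sum, Finset.mul_sum]
  refine Finset.sum_congr rfl fun i hi => ?_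
  rw [Finset.mem_range] at hi
  simp only [map_mul, map_pow, aeval_C, aeval_X]
  have h1 : s ^ m = s ^ (m - i) * s ^ i := by rw [← pow_add]; congr 1; omega
  rw [h1, inv_pow]
  field_simp

theorem aeval_cr_zero {Ω : Type} [Field Ω] [Algebra k Ω] (j : Fin 3) :
    aeval (0 : Ω) (cr b a m j) = algebraMap k Ω (b.repr (a.coeff m) j) := by
  rw [cr, map_sum, Finset.sum_range_succ, Finset.sum_eq_zero, zero_add]
  · simp
  · intro i hi
    rw [Finset.mem_range] at hi
    simp only [map_mul, map_pow, aeval_C, aeval_X]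
    rw [zero_pow (by omega), mul_zero]

theorem span_top {ι : Type} (P : ι → k[X])
    (h : ∀ t : AlgebraicClosure k, ∃ j, aeval t (P j) ≠ 0) : Ideal.span (Set.range P) = ⊤ := by
  set I := Ideal.span (Set.range P) with hI
  have hprin : I.IsPrincipal := inferInstance
  obtain ⟨g, hg⟩ := hprin
  by_contra hne
  have hdeg : g.degree ≠ 0 := by
    intro h0
    apply hne
    rw [hg]
    exact Ideal.span_singleton_eq_top.mpr (isUnit_iff_degree_eq_zero.mpr h0)
  obtain ⟨t, ht⟩ := IsAlgClosed.exists_aeval_eq_zero (AlgebraicClosure k) g hdeg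
  obtain ⟨j, hj⟩ := h t
  apply hj
  have h1 : P j ∈ I := Ideal.subset_span ⟨j, rfl⟩
  rw [hg] at h1
  obtain ⟨q, hq⟩ := Ideal.mem_span_singleton'.mp h1
  rw [← hq, map_mul, ht, mul_zero]

theorem span_cp (ham : a.natDegree ≤ m)
    (hco : ∀ t : AlgebraicClosure k, ∃ σ : F →ₐ[k] AlgebraicClosure k,
      (a.map (σ : F →+* AlgebraicClosure k)).eval t ≠ 0) :
    Ideal.span (Set.range (cp b a m)) = ⊤ := by
  refine span_top _ fun t => ?_
  obtain ⟨σ, hσ⟩ := hco t
  by_contra hcon
  push Not at hcon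
  apply hσ
  rw [eval_map_eq (b := b) ham]
  exact Finset.sum_eq_zero fun j _ => by rw [hcon j, zero_mul]

theorem span_cr (ham : a.natDegree ≤ m) (hm : a.coeff m ≠ 0)
    (hco : ∀ t : AlgebraicClosure k, ∃ σ : F →ₐ[k] AlgebraicClosure k,
      (a.map (σ : F →+* AlgebraicClosure k)).eval t ≠ 0) :
    Ideal.span (Set.range (cr b a m)) = ⊤ := by
  refine span_top _ fun t => ?_
  by_cases ht : t = 0
  · subst ht
    by_contra hcon
    push Not at hcon
    apply hm
    apply b.repr.injective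
    ext j
    have h1 := hcon j
    rw [aeval_cr_zero] at h1
    rw [map_zero, Finsupp.zero_apply]
    exact (map_eq_zero _).mp h1
  · obtain ⟨σ, hσ⟩ := hco t⁻¹
    by_contra hcon
    push Not at hcon
    apply hσ
    rw [eval_map_eq (b := b) ham]
    refine Finset.sum_eq_zero fun j _ => ?_
    have h1 := hcon j
    rw [aeval_cr ht] at h1
    rw [(mul_eq_zero.mp h1).resolve_left (pow_ne_zero _ ht), zero_mul]

end coord

section main

variable {k F : Type} [Field k] [NumberField k] [Field F] [NumberField F] [Algebra k F]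

/-- Outside a finite set of places the values are units, up to the obvious power. -/
theorem exists_finite (hF : finrank k F = 3) (a : F[X]) {m : ℕ} (ham : a.natDegree ≤ m)
    (hm : a.coeff m ≠ 0)
    (hco : ∀ t : AlgebraicClosure k, ∃ σ : F →ₐ[k] AlgebraicClosure k,
      (a.map (σ : F →+* AlgebraicClosure k)).eval t ≠ 0)
    (G : k[X]) {r : ℕ} (hG : G.natDegree ≤ r) :
    ∃ S : Set (HeightOneSpectrum (𝓞 k)), S.Finite ∧ ∀ v ∉ S,
      ¬ Nonempty (F →ₐ[k] v.adicCompletion k) → ∀ t : k,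
      v.valuation k (Algebra.norm k (a.eval (algebraMap k F t))) =
        max 1 (v.valuation k t) ^ (3 * m) ∧
      v.valuation k (G.eval t) ≤ max 1 (v.valuation k t) ^ r := by
  have hfd : FiniteDimensional k F := Module.finite_of_finrank_pos (by omega)
  let b : Basis (Fin 3) k F := Module.finBasisOfFinrankEq k F hF
  obtain ⟨S1, hS1, h1⟩ := exists_unit (cp b a m) (span_cp ham hco)
  obtain ⟨S2, hS2, h2⟩ := exists_unit (cr b a m) (span_cr ham hm hco)
  have hS3 := goodB_finite b
  have hS4 := intAt_finite G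
  have hS5 : (⋃ j, {v : HeightOneSpectrum (𝓞 k) | ¬ IntAt v (cp b a m j)}).Finite :=
    Set.finite_iUnion fun j => intAt_finite _
  have hS6 : (⋃ j, {v : HeightOneSpectrum (𝓞 k) | ¬ IntAt v (cr b a m j)}).Finite :=
    Set.finite_iUnion fun j => intAt_finite _
  refine ⟨_, ((((hS1.union hS2).union hS3).union hS4).union hS5).union hS6, ?_⟩
  intro v hv hno t
  simp only [Set.mem_union, Set.mem_iUnion, Set.mem_setOf_eq, not_or, not_exists, not_not] at hv
  obtain ⟨⟨⟨⟨⟨hv1, hv2⟩, hv3⟩, hv4⟩, hv5⟩, hv6⟩ := hv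
  refine ⟨?_, eval_le hv4 hG t⟩
  rcases le_or_gt (v.valuation k t) 1 with ht | ht
  · rw [max_eq_left ht, one_pow]
    obtain ⟨j, hj⟩ := h1 v hv1 t ht
    have h3 : ∀ l, b.repr (a.eval (algebraMap k F t)) l = (cp b a m l).eval t := by
      intro l
      rw [eval_eq (b := b) ham, b.repr_sum_self]
    refine norm_unit hF hv3 hno (fun l => ?_) (j := j) ?_
    · rw [h3]; exact eval_le_one (hv5 l) ht
    · rw [h3]; exact hj
  · rw [max_eq_right ht.le]
    have ht0 : t ≠ 0 := by
      rintro rfl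
      rw [map_zero] at ht
      exact absurd ht (by simp)
    have hs : v.valuation k t⁻¹ ≤ 1 := by
      rw [map_inv₀]
      exact inv_le_one_of_one_le₀ ht.le
    obtain ⟨j, hj⟩ := h2 v hv2 t⁻¹ hs
    set x : F := algebraMap k F (t⁻¹ ^ m) * a.eval (algebraMap k F t) with hx
    have h3 : ∀ l, b.repr x l = (cr b a m l).eval t⁻¹ := by
      intro l
      rw [hx, ← Algebra.smul_def, map_smul, Finsupp.smul_apply, smul_eq_mul,
        eval_eq (b := b) ham, b.repr_sum_self]
      have h4 := aeval_cr (b := b) (a := a) (m := m) (inv_ne_zero ht0) l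
      rw [inv_inv] at h4
      simp only [coe_aeval_eq_eval] at h4
      exact h4.symm
    have h4 : v.valuation k (Algebra.norm k x) = 1 := by
      refine norm_unit hF hv3 hno (fun l => ?_) (j := j) ?_
      · rw [h3]; exact eval_le_one (hv6 l) hs
      · rw [h3]; exact hj
    rw [hx, map_mul, Algebra.norm_algebraMap, hF, map_mul, map_pow, map_pow, map_inv₀, ← pow_mul,
      inv_pow, mul_comm m 3] at h4
    have h5 : v.valuation k t ^ (3 * m) ≠ 0 :=
      pow_ne_zero _ ((Valuation.ne_zero_iff _).mpr ht0)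
    exact (inv_mul_eq_one₀ h5).mp h4 |>.symm


theorem exists_small (v : HeightOneSpectrum (𝓞 k)) {γ : Z0} (hγ : γ ≠ 0) :
    ∃ z : k, z ≠ 0 ∧ v.valuation k z < γ := by
  obtain ⟨π, hπ⟩ := v.valuation_exists_uniformizer k
  have hπ0 : π ≠ 0 := by
    rintro rfl
    rw [map_zero] at hπ
    exact absurd hπ.symm WithZero.exp_ne_zero
  refine ⟨π ^ (1 - WithZero.log γ).toNat, pow_ne_zero _ hπ0, ?_⟩
  rw [map_pow, hπ, ← WithZero.exp_log hγ, ← WithZero.exp_nsmul, WithZero.exp_lt_exp,
    WithZero.log_exp]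
  have := Int.self_le_toNat (1 - WithZero.log γ)
  simp only [nsmul_eq_mul]
  linarith

theorem exists_large (v : HeightOneSpectrum (𝓞 k)) (γ : Z0) :
    ∃ z : k, z ≠ 0 ∧ γ < v.valuation k z := by
  by_cases hγ : γ = 0
  · exact ⟨1, one_ne_zero, by rw [hγ, map_one]; exact zero_lt_one⟩
  · obtain ⟨z, hz, hz'⟩ := exists_small v (inv_ne_zero hγ)
    refine ⟨z⁻¹, inv_ne_zero hz, ?_⟩
    rw [map_inv₀]
    exact (lt_inv_comm₀ (zero_lt_iff.mpr ((Valuation.ne_zero_iff _).mpr hz))
      (zero_lt_iff.mpr hγ)).mp hz'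

/-- A lower bound for the nonzero values on a finite set. -/
theorem exists_lower (v : HeightOneSpectrum (𝓞 k)) {E : Set k} (hE : E.Finite) {γ : Z0}
    (hγ : γ ≠ 0) : ∃ γ' : Z0, γ' ≠ 0 ∧ γ' ≤ γ ∧ ∀ e ∈ E, e ≠ 0 → γ' ≤ v.valuation k e := by
  induction E, hE using Set.Finite.induction_on with
  | empty => exact ⟨γ, hγ, le_rfl, fun e he => absurd he (Set.notMem_empty e)⟩
  | @insert c E _ _ ih =>
    obtain ⟨γ', h1, h2, h3⟩ := ih
    by_cases hc : c = 0
    · refine ⟨γ', h1, h2, fun e he he0 => ?_⟩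
      rcases Set.mem_insert_iff.mp he with rfl | he
      · exact absurd hc he0
      · exact h3 e he he0
    · refine ⟨min γ' (v.valuation k c), ?_, (min_le_left _ _).trans h2, fun e he he0 => ?_⟩
      · rcases min_choice γ' (v.valuation k c) with h | h <;> rw [h]
        · exact h1
        · exact (Valuation.ne_zero_iff _).mpr hc
      · rcases Set.mem_insert_iff.mp he with rfl | he
        · exact min_le_right _ _
        · exact (min_le_left _ _).trans (h3 e he he0)

/-- An upper bound for the values on a finite set. -/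
theorem exists_upper (v : HeightOneSpectrum (𝓞 k)) {E : Set k} (hE : E.Finite) (γ : Z0) :
    ∃ γ' : Z0, γ ≤ γ' ∧ ∀ e ∈ E, v.valuation k e ≤ γ' := by
  induction E, hE using Set.Finite.induction_on with
  | empty => exact ⟨γ, le_rfl, fun e he => absurd he (Set.notMem_empty e)⟩
  | @insert c E _ _ ih =>
    obtain ⟨γ', h2, h3⟩ := ih
    refine ⟨max γ' (v.valuation k c), h2.trans (le_max_left _ _), fun e he => ?_⟩
    rcases Set.mem_insert_iff.mp he with rfl | he
    · exact le_max_right _ _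
    · exact (h3 e he).trans (le_max_left _ _)

/-- An element small at the places of `T`, large at the places of `S` outside `T`, outside a given
finite set. -/
theorem exists_param {S T : Set (HeightOneSpectrum (𝓞 k))} (hS : S.Finite) (hT : T.Finite)
    {E : Set k} (hE : E.Finite) (γ : HeightOneSpectrum (𝓞 k) → Z0) (hγ : ∀ v ∈ T, γ v ≠ 0) :
    ∃ t : k, t ∉ E ∧ t ≠ 0 ∧ (∀ v ∈ T, v.valuation k t < γ v) ∧
      ∀ v ∈ S, v ∉ T → γ v < v.valuation k t := by
  classical
  obtain ⟨v0⟩ := nonempty_prime (F := k)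
  have hex : ∀ v : HeightOneSpectrum (𝓞 k), ∃ z : k, z ≠ 0 ∧
      (v ∈ T → v.valuation k z < γ v ∧ ∀ e ∈ E, e ≠ 0 → v.valuation k z < v.valuation k e) ∧
      (v ∉ T → γ v < v.valuation k z ∧ ∀ e ∈ E, v.valuation k e < v.valuation k z) := by
    intro v
    by_cases hv : v ∈ T
    · obtain ⟨γ', h1, h2, h3⟩ := exists_lower v hE (hγ v hv)
      obtain ⟨z, hz, hz'⟩ := exists_small v h1
      exact ⟨z, hz, fun _ => ⟨hz'.trans_le h2, fun e he he0 => hz'.trans_le (h3 e he he0)⟩,
        fun h => absurd hv h⟩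
    · obtain ⟨γ', h2, h3⟩ := exists_upper v hE (γ v)
      obtain ⟨z, hz, hz'⟩ := exists_large v γ'
      exact ⟨z, hz, fun h => absurd h hv,
        fun _ => ⟨h2.trans_lt hz', fun e he => (h3 e he).trans_lt hz'⟩⟩
  choose z hz0 hzT hzS using hex
  let A : Set (Pl k) := Sum.inl '' (S ∪ T ∪ {v0})
  have hA : A.Finite := ((hS.union hT).union (Set.finite_singleton v0)).image _
  let z' : Pl k → k := fun p => match p with
    | .inl v => z v
    | .inr _ => 0
  let δ : Pl k → ℝ := fun p => match p with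
    | .inl v => plAbv (.inl v) (z v)
    | .inr _ => 1
  obtain ⟨t, ht⟩ := approx A hA z' δ (by
    rintro (v | φ)
    · exact (plAbv (.inl v)).pos (hz0 v)
    · exact one_pos)
  have key : ∀ v ∈ S ∪ T ∪ {v0}, v.valuation k t = v.valuation k (z v) := by
    intro v hv
    have h1 := ht (.inl v) ⟨v, hv, rfl⟩
    have h2 : v.valuation k (t - z v) < v.valuation k (z v) := (plAbv_lt v _ _).mp h1
    have h3 : t = (t - z v) + z v := by ring
    rw [h3, Valuation.map_add_eq_of_lt_right _ h2]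
  have h0 := key v0 (Or.inr rfl)
  have ht0 : t ≠ 0 := by
    rintro rfl
    rw [map_zero] at h0
    exact (Valuation.ne_zero_iff _).mpr (hz0 v0) h0.symm
  refine ⟨t, fun htE => ?_, ht0, fun v hv => ?_, fun v hv hvT => ?_⟩
  · by_cases hv : v0 ∈ T
    · exact absurd h0 ((hzT v0 hv).2 t htE ht0).ne'
    · exact absurd h0 ((hzS v0 hv).2 t htE).ne
  · rw [key v (Or.inl (Or.inr hv))]
    exact (hzT v hv).1
  · rw [key v (Or.inl (Or.inl hv))]
    exact (hzS v hvT).1

/-- The choice of the parameter. `P v t` is a property which holds for `t` near `0` at the places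
of `T` and near infinity at the other places without a point of the extension. -/
theorem exists_good (hF : finrank k F = 3) (a : F[X]) {m : ℕ} (ham : a.natDegree ≤ m)
    (hm : a.coeff m ≠ 0)
    (hco : ∀ t : AlgebraicClosure k, ∃ σ : F →ₐ[k] AlgebraicClosure k,
      (a.map (σ : F →+* AlgebraicClosure k)).eval t ≠ 0)
    (G : k[X]) {r : ℕ} (hG : G.natDegree ≤ r)
    (P : HeightOneSpectrum (𝓞 k) → k → Prop) {S₀ T : Set (HeightOneSpectrum (𝓞 k))}
    (hS₀ : S₀.Finite) (hT : T.Finite) {E : Set k} (hE : E.Finite)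
    (h0 : ∀ v ∈ T, ∃ γ : Z0, γ ≠ 0 ∧ ∀ t, v.valuation k t < γ → P v t)
    (hinf : ∀ v ∉ T, Nonempty (F →ₐ[k] v.adicCompletion k) ∨
      ∃ γ : Z0, ∀ t, γ < v.valuation k t → P v t) :
    ∃ t : k, t ∉ E ∧ t ≠ 0 ∧ ∀ v : HeightOneSpectrum (𝓞 k), P v t ∨
      Nonempty (F →ₐ[k] v.adicCompletion k) ∨
      (v ∉ S₀ ∧ v.valuation k (Algebra.norm k (a.eval (algebraMap k F t))) =
        max 1 (v.valuation k t) ^ (3 * m) ∧
      v.valuation k (G.eval t) ≤ max 1 (v.valuation k t) ^ r) := by
  classical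
  obtain ⟨S, hS, hSv⟩ := exists_finite hF a ham hm hco G hG
  have hex : ∀ v : HeightOneSpectrum (𝓞 k), ∃ γ : Z0,
      (v ∈ T → γ ≠ 0 ∧ ∀ t, v.valuation k t < γ → P v t) ∧
      (v ∉ T → Nonempty (F →ₐ[k] v.adicCompletion k) ∨ ∀ t, γ < v.valuation k t → P v t) := by
    intro v
    by_cases hv : v ∈ T
    · obtain ⟨γ, h1, h2⟩ := h0 v hv
      exact ⟨γ, fun _ => ⟨h1, h2⟩, fun h => absurd hv h⟩
    · rcases hinf v hv with h | ⟨γ, h⟩
      · exact ⟨1, fun h' => absurd h' hv, fun _ => Or.inl h⟩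
      · exact ⟨γ, fun h' => absurd h' hv, fun _ => Or.inr h⟩
  choose γ hγT hγS using hex
  obtain ⟨t, htE, ht0, h1, h2⟩ := exists_param (hS.union hS₀) hT hE γ (fun v hv => (hγT v hv).1)
  refine ⟨t, htE, ht0, fun v => ?_⟩
  by_cases hvT : v ∈ T
  · exact Or.inl ((hγT v hvT).2 t (h1 v hvT))
  · by_cases hpt : Nonempty (F →ₐ[k] v.adicCompletion k)
    · exact Or.inr (Or.inl hpt)
    · by_cases hv : v ∈ S ∪ S₀
      · exact Or.inl (((hγS v hvT).resolve_left hpt) t (h2 v hv hvT))
      · simp only [Set.mem_union, not_or] at hv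
        exact Or.inr (Or.inr ⟨hv.2, hSv v hv.1 hpt t⟩)

/-- The third alternative of `exists_good` for `m = 4`, `r = 6`, after the substitution
`f ↦ c f`: the norm of `c² A` is a unit and `c³ G` is integral. -/
theorem exists_scale {v : HeightOneSpectrum (𝓞 k)} (hF : finrank k F = 3) {t : k} {A : F} {g : k}
    (hA : v.valuation k (Algebra.norm k A) = max 1 (v.valuation k t) ^ (3 * 4))
    (hg : v.valuation k g ≤ max 1 (v.valuation k t) ^ 6) :
    ∃ c : k, c ≠ 0 ∧ v.valuation k (Algebra.norm k (algebraMap k F (c ^ 2) * A)) = 1 ∧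
      v.valuation k (c ^ 3 * g) ≤ 1 := by
  rcases le_or_gt (v.valuation k t) 1 with ht | ht
  · rw [max_eq_left ht, one_pow] at hA hg
    exact ⟨1, one_ne_zero, by simpa using hA, by simpa using hg⟩
  · rw [max_eq_right ht.le] at hA hg
    have ht0 : t ≠ 0 := by
      rintro rfl
      rw [map_zero] at ht
      exact absurd ht (by simp)
    have hv0 : v.valuation k t ≠ 0 := (Valuation.ne_zero_iff _).mpr ht0
    refine ⟨(t ^ 2)⁻¹, inv_ne_zero (pow_ne_zero _ ht0), ?_, ?_⟩
    · rw [map_mul, Algebra.norm_algebraMap, hF, map_mul, hA]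
      simp only [map_pow, map_inv₀]
      have h1 : ((v.valuation k t ^ 2)⁻¹ ^ 2) ^ 3 * v.valuation k t ^ (3 * 4) =
          (v.valuation k t ^ 12)⁻¹ * v.valuation k t ^ 12 := by
        rw [← pow_mul, inv_pow, ← pow_mul]
      rw [h1, inv_mul_cancel₀ (pow_ne_zero _ hv0)]
    · rw [map_mul]
      simp only [map_pow, map_inv₀]
      calc (v.valuation k t ^ 2)⁻¹ ^ 3 * v.valuation k g
          ≤ (v.valuation k t ^ 2)⁻¹ ^ 3 * v.valuation k t ^ 6 := mul_le_mul_right hg _
        _ = (v.valuation k t ^ 6)⁻¹ * v.valuation k t ^ 6 := by rw [inv_pow, ← pow_mul]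
        _ = 1 := inv_mul_cancel₀ (pow_ne_zero _ hv0)

end main

end Vale.Agent.P011.H672
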