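import Vale.Agent.P011.W.Compl

/-!
Values of polynomials at almost all places.
-/

open NumberField IsDedekindDomain Polynomial Module

namespace Vale.Agent.P011.H672

section bezout

variable {k : Type} [Field k] [NumberField k]

/-- The coefficients of `p` are integral at `v`. -/
def IntAt (v : HeightOneSpectrum (𝓞 k)) (p : k[X]) : Prop :=
  ∀ i, v.valuation k (p.coeff i) ≤ 1

theorem intAt_finite (p : k[X]) : {v : HeightOneSpectrum (𝓞 k) | ¬ IntAt v p}.Finite := by
  refine Set.Finite.subset (s := ⋃ i ∈ p.support, HeightOneSpectrum.Support (𝓞 k) (p.coeff i)) ?_ ?_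
  · exact Set.Finite.biUnion p.support.finite_toSet fun i _ =>
      HeightOneSpectrum.Support.finite (𝓞 k) (p.coeff i)
  · intro v hv
    simp only [IntAt, Set.mem_setOf_eq, not_forall, not_le] at hv
    obtain ⟨i, hi⟩ := hv
    simp only [Set.mem_iUnion]
    refine ⟨i, ?_, hi⟩
    rw [Polynomial.mem_support_iff]
    intro h0
    rw [h0, map_zero] at hi
    exact absurd hi (by simp)

theorem eval_le {v : HeightOneSpectrum (𝓞 k)} {p : k[X]} (hp : IntAt v p) {n : ℕ}
    (hn : p.natDegree ≤ n) (t : k) :
    v.valuation k (p.eval t) ≤ max 1 (v.valuation k t) ^ n := by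
  rw [eval_eq_sum_range' (Nat.lt_succ_of_le hn)]
  refine Valuation.map_sum_le _ fun i hi => ?_
  rw [Finset.mem_range] at hi
  rw [map_mul, map_pow]
  calc v.valuation k (p.coeff i) * v.valuation k t ^ i
      ≤ 1 * max 1 (v.valuation k t) ^ i :=
        mul_le_mul' (hp i) (pow_le_pow_left' (le_max_right _ _) i)
    _ ≤ max 1 (v.valuation k t) ^ n := by
        rw [one_mul]
        exact pow_le_pow_right' (le_max_left _ _) (by omega)

theorem eval_le_one {v : HeightOneSpectrum (𝓞 k)} {p : k[X]} (hp : IntAt v p) {t : k}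
    (ht : v.valuation k t ≤ 1) : v.valuation k (p.eval t) ≤ 1 := by
  refine (eval_le hp le_rfl t).trans ?_
  rw [max_eq_left ht, one_pow]

/-- Polynomials without a common factor have no common zero modulo almost all places. -/
theorem exists_unit {ι : Type} [Fintype ι] (P : ι → k[X])
    (h : Ideal.span (Set.range P) = ⊤) :
    ∃ S : Set (HeightOneSpectrum (𝓞 k)), S.Finite ∧ ∀ v ∉ S, ∀ t : k, v.valuation k t ≤ 1 →
      ∃ j, 1 ≤ v.valuation k ((P j).eval t) := by
  classical
  have h1 : (1 : k[X]) ∈ Ideal.span (Set.range P) := by rw [h]; trivial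
  rw [Ideal.mem_span_range_iff_exists_fun] at h1
  obtain ⟨U, hU⟩ := h1
  refine ⟨⋃ j, {v | ¬ IntAt v (U j)}, Set.finite_iUnion fun j => intAt_finite _, ?_⟩
  intro v hv t ht
  simp only [Set.mem_iUnion, Set.mem_setOf_eq, not_exists, not_not] at hv
  by_contra hcon
  push Not at hcon
  have h2 : (∑ j, (U j).eval t * (P j).eval t) = 1 := by
    have := congrArg (Polynomial.eval t) hU
    simpa [Polynomial.eval_finset_sum] using this
  have h3 : v.valuation k (∑ j, (U j).eval t * (P j).eval t) < 1 := by
    refine Valuation.map_sum_lt _ one_ne_zero fun j _ => ?_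
    rw [map_mul]
    calc _ ≤ 1 * v.valuation k ((P j).eval t) := mul_le_mul_left (eval_le_one (hv j) ht) _
      _ < 1 := by rw [one_mul]; exact hcon j
  rw [h2, map_one] at h3
  exact lt_irrefl _ h3

end bezout

end Vale.Agent.P011.H672
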