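import Vale.Agent.P011.H672.Conic1

/-!
Cubic extensions: an integral element whose norm is not a unit gives a point over the completion.
-/

open NumberField IsDedekindDomain Polynomial Module

namespace Vale.Agent.P011.H672

open Vale.Agent.P011.Arith (Z0)

section point

variable {k F : Type} [Field k] [NumberField k] [Field F] [NumberField F] [Algebra k F]

/-- A root of the characteristic polynomial of a noncentral element gives a point. -/
theorem point_of_root {R : Type} [Field R] [Algebra k R] (hF : finrank k F = 3) {x : F}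
    (hx : x ∉ (algebraMap k F).range) {y : R} (b : Basis (Fin 3) k F)
    (hy : aeval y (Algebra.leftMulMatrix b x).charpoly = 0) : Nonempty (F →ₐ[k] R) := by
  have hfd : FiniteDimensional k F := Module.finite_of_finrank_pos (by omega)
  have hint : IsIntegral k x := Algebra.IsIntegral.isIntegral x
  -- the field generated by `x`
  have h1 : IntermediateField.adjoin k {x} = ⊤ := by
    have hdvd : finrank k (IntermediateField.adjoin k {x}) ∣ 3 := by
      rw [← hF]
      exact ⟨_, (finrank_mul_finrank k (IntermediateField.adjoin k {x}) F).symm⟩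
    rcases (Nat.dvd_prime Nat.prime_three).mp hdvd with h | h
    · exfalso
      rw [IntermediateField.finrank_eq_one_iff] at h
      have h2 := IntermediateField.mem_adjoin_simple_self k x
      rw [h, IntermediateField.mem_bot] at h2
      exact hx h2
    · exact IntermediateField.eq_of_le_of_finrank_eq le_top
        (by rw [h, IntermediateField.finrank_top', hF])
  have h2 : (minpoly k x).natDegree = 3 := by
    rw [← IntermediateField.adjoin.finrank hint, h1, IntermediateField.finrank_top', hF]
  have h3 : (Algebra.leftMulMatrix b x).charpoly = minpoly k x := by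
    have h4 : aeval x (Algebra.leftMulMatrix b x).charpoly = 0 := by
      have h5 := Matrix.aeval_self_charpoly (Algebra.leftMulMatrix b x)
      rw [Polynomial.aeval_algHom_apply] at h5
      exact Algebra.leftMulMatrix_injective b (by rw [h5, map_zero])
    have h5 := minpoly.dvd k x h4
    refine (eq_of_monic_of_dvd_of_natDegree_le (minpoly.monic hint)
      (Matrix.charpoly_monic _) h5 ?_)
    rw [Matrix.charpoly_natDegree_eq_dim, h2]
    simp
  rw [h3] at hy
  have e1 := (IntermediateField.adjoinRootEquivAdjoin k hint).symm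
  have f1 : AdjoinRoot (minpoly k x) →ₐ[k] R := AdjoinRoot.liftAlgHom _ (Algebra.ofId k R) y (by
    rw [← hy]; rfl)
  have e2 : F ≃ₐ[k] (IntermediateField.adjoin k {x} : IntermediateField k F) :=
    IntermediateField.topEquiv.symm.trans (IntermediateField.equivOfEq h1.symm)
  exact ⟨f1.comp (e1.toAlgHom.comp e2.toAlgHom)⟩

end point

section matrices

variable {k : Type} [Field k] [NumberField k]

theorem trace_lt (v : HeightOneSpectrum (𝓞 k)) (M : Matrix (Fin 3) (Fin 3) k)
    (hM : ∀ i j, v.valuation k (M i j) ≤ 1) (h3 : ∀ i j, v.valuation k ((M ^ 3) i j) < 1) :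
    v.valuation k M.trace < 1 := by
  set O := (v.valuation k).valuationSubring with hO
  have hint : (v.valuation k).Integers O := Valuation.valuationSubring.integers _
  have hmem : ∀ x : O, x ∈ IsLocalRing.maximalIdeal O ↔ v.valuation k (algebraMap O k x) < 1 := by
    intro x
    rw [IsLocalRing.mem_maximalIdeal, mem_nonunits_iff, hint.isUnit_iff_valuation_eq_one]
    exact ⟨fun h => lt_of_le_of_ne x.2 h, fun h => h.ne⟩
  obtain ⟨N, hN⟩ : ∃ N : Matrix (Fin 3) (Fin 3) O, (algebraMap O k).mapMatrix N = M :=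
    ⟨Matrix.of fun i j => ⟨M i j, hM i j⟩, by ext i j; rfl⟩
  have hN3 : ((IsLocalRing.residue O).mapMatrix N) ^ 3 = 0 := by
    rw [← map_pow]
    ext i j
    rw [RingHom.mapMatrix_apply, Matrix.map_apply, Matrix.zero_apply,
      IsLocalRing.residue_eq_zero_iff, hmem]
    have h4 : (algebraMap O k).mapMatrix (N ^ 3) = M ^ 3 := by rw [map_pow, hN]
    have h5 := congrFun (congrFun h4 i) j
    rw [RingHom.mapMatrix_apply, Matrix.map_apply] at h5
    rw [h5]
    exact h3 i j
  have h5 := (Matrix.isNilpotent_trace_of_isNilpotent ⟨3, hN3⟩).eq_zero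
  have h6 : IsLocalRing.residue O N.trace = 0 := by
    rw [← h5, Matrix.trace, Matrix.trace, map_sum]
    rfl
  rw [IsLocalRing.residue_eq_zero_iff, hmem] at h6
  have h7 : algebraMap O k N.trace = M.trace := by
    rw [← hN, Matrix.trace, Matrix.trace, map_sum]
    rfl
  rwa [h7] at h6

theorem coeff_charpoly_le (v : HeightOneSpectrum (𝓞 k)) (M : Matrix (Fin 3) (Fin 3) k)
    (hM : ∀ i j, v.valuation k (M i j) ≤ 1) (i : ℕ) : v.valuation k (M.charpoly.coeff i) ≤ 1 := by
  set O := (v.valuation k).valuationSubring with hO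
  obtain ⟨N, hN⟩ : ∃ N : Matrix (Fin 3) (Fin 3) O, (algebraMap O k).mapMatrix N = M :=
    ⟨Matrix.of fun i j => ⟨M i j, hM i j⟩, by ext i j; rfl⟩
  rw [← hN, RingHom.mapMatrix_apply, Matrix.charpoly_map, coeff_map]
  exact (N.charpoly.coeff i).2

theorem charpoly_eq (M : Matrix (Fin 3) (Fin 3) k) :
    M.charpoly = X ^ 3 + C (M.charpoly.coeff 2) * X ^ 2 + C (M.charpoly.coeff 1) * X +
      C (M.charpoly.coeff 0) := by
  have h1 : M.charpoly.natDegree = 3 := by rw [Matrix.charpoly_natDegree_eq_dim]; simp
  have h2 : M.charpoly.coeff 3 = 1 := by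
    have := M.charpoly_monic.coeff_natDegree
    rwa [h1] at this
  conv_lhs => rw [M.charpoly.as_sum_range_C_mul_X_pow, h1]
  rw [Finset.sum_range_succ, Finset.sum_range_succ, Finset.sum_range_succ, Finset.sum_range_succ,
    Finset.sum_range_zero, h2, C_1]
  ring

section mat

variable {v : HeightOneSpectrum (𝓞 k)}

theorem mul_le_one {M N : Matrix (Fin 3) (Fin 3) k} (hM : ∀ i j, v.valuation k (M i j) ≤ 1)
    (hN : ∀ i j, v.valuation k (N i j) ≤ 1) (i j : Fin 3) : v.valuation k ((M * N) i j) ≤ 1 := by
  rw [Matrix.mul_apply]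
  refine Valuation.map_sum_le _ fun l _ => ?_
  rw [map_mul]
  exact mul_le_one' (hM _ _) (hN _ _)

theorem mul_lt_one {M N : Matrix (Fin 3) (Fin 3) k} (hM : ∀ i j, v.valuation k (M i j) < 1)
    (hN : ∀ i j, v.valuation k (N i j) ≤ 1) (i j : Fin 3) : v.valuation k ((M * N) i j) < 1 := by
  rw [Matrix.mul_apply]
  refine Valuation.map_sum_lt _ one_ne_zero fun l _ => ?_
  rw [map_mul]
  exact mul_lt_one_of_lt_of_le (hM _ _) (hN _ _)

theorem one_le_one (i j : Fin 3) : v.valuation k ((1 : Matrix (Fin 3) (Fin 3) k) i j) ≤ 1 := by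
  rw [Matrix.one_apply]
  split_ifs <;> simp

theorem pow_le_one {M : Matrix (Fin 3) (Fin 3) k} (hM : ∀ i j, v.valuation k (M i j) ≤ 1)
    (n : ℕ) : ∀ i j : Fin 3, v.valuation k ((M ^ n) i j) ≤ 1 := by
  induction n with
  | zero => intro i j; rw [pow_zero]; exact one_le_one i j
  | succ n ih => intro i j; rw [pow_succ]; exact mul_le_one ih hM i j

/-- The third power of a matrix whose characteristic polynomial is `X ^ 3` modulo `v`. -/
theorem cube_lt {M : Matrix (Fin 3) (Fin 3) k} (hM : ∀ i j, v.valuation k (M i j) ≤ 1)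
    (h : ∀ i < 3, v.valuation k (M.charpoly.coeff i) < 1) (i j : Fin 3) :
    v.valuation k ((M ^ 3) i j) < 1 := by
  have h1 := M.aeval_self_charpoly
  rw [charpoly_eq M] at h1
  simp only [map_add, map_mul, map_pow, aeval_X, aeval_C] at h1
  have h2 : M ^ 3 = -(M.charpoly.coeff 2 • M ^ 2 + M.charpoly.coeff 1 • M +
      M.charpoly.coeff 0 • (1 : Matrix (Fin 3) (Fin 3) k)) := by
    rw [Algebra.smul_def, Algebra.smul_def, Algebra.smul_def, mul_one]
    linear_combination (norm := abel) h1
  rw [h2, Matrix.neg_apply, Valuation.map_neg, Matrix.add_apply, Matrix.add_apply,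
    Matrix.smul_apply, Matrix.smul_apply, Matrix.smul_apply, smul_eq_mul, smul_eq_mul, smul_eq_mul]
  refine Valuation.map_add_lt _ (Valuation.map_add_lt _ ?_ ?_) ?_
  · rw [map_mul]; exact mul_lt_one_of_lt_of_le (h 2 (by omega)) (pow_le_one hM 2 _ _)
  · rw [map_mul]; exact mul_lt_one_of_lt_of_le (h 1 (by omega)) (hM _ _)
  · rw [map_mul]; exact mul_lt_one_of_lt_of_le (h 0 (by omega)) (one_le_one _ _)

end mat

end matrices

end Vale.Agent.P011.H672
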