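import Vale.Agent.P011.H672.Conic2

/-!
Norms of integral elements in a cubic extension at a place where the extension has no point.
-/

open NumberField IsDedekindDomain Polynomial Module

namespace Vale.Agent.P011.H672

open Vale.Agent.P011.Arith (Z0)
open Vale.Agent.P011.Even (valued_alg)

variable {k F : Type} [Field k] [NumberField k] [Field F] [NumberField F] [Algebra k F]

/-- Hensel's lemma for a cubic polynomial with a simple root modulo `v`. -/
theorem exists_root (v : HeightOneSpectrum (𝓞 k)) {p : k[X]} {p0 p1 p2 : k}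
    (hp : p = X ^ 3 + C p2 * X ^ 2 + C p1 * X + C p0)
    (h0 : v.valuation k p0 < 1) (h1 : v.valuation k p1 ≤ 1) (h2 : v.valuation k p2 ≤ 1)
    (h : v.valuation k p1 = 1 ∨ (v.valuation k p1 < 1 ∧ v.valuation k p2 = 1)) :
    ∃ y : v.adicCompletion k, aeval y p = 0 := by
  have hint : ∀ i, v.valuation k (p.coeff i) ≤ 1 := by
    intro i
    rw [hp]
    simp only [coeff_add, coeff_X_pow, coeff_C_mul, coeff_X, coeff_C]
    rcases i with _ | _ | _ | _ | i
    · simpa using h0.le
    · simpa using h1
    · simpa using h2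
    · simp
    · simp [show ¬ (i + 1 + 1 + 1 + 1 = 3) by omega, show ¬ (i + 1 + 1 + 1 + 1 = 2) by omega]
  have key : ∃ x : k, v.valuation k x ≤ 1 ∧ v.valuation k (p.eval x) < 1 ∧
      v.valuation k (p.derivative.eval x) = 1 := by
    rcases h with h | ⟨h, h'⟩
    · refine ⟨0, by simp, ?_, ?_⟩
      · rw [hp]; simpa using h0
      · rw [hp]; simpa using h
    · refine ⟨-p2, by rw [Valuation.map_neg, h'], ?_, ?_⟩
      · have e : p.eval (-p2) = p0 - p1 * p2 := by rw [hp]; simp; ring
        rw [e]
        refine (Valuation.map_sub _ _ _).trans_lt (max_lt h0 ?_)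
        rw [map_mul, h', mul_one]
        exact h
      · have e : p.derivative.eval (-p2) = p1 + p2 ^ 2 := by rw [hp]; simp; ring
        have h3 : v.valuation k (p2 ^ 2) = 1 := by rw [map_pow, h', one_pow]
        rw [e, Valuation.map_add_eq_of_lt_right _ (by rw [h3]; exact h), h3]
  obtain ⟨x, hx1, hx2, hx3⟩ := key
  obtain ⟨y, hy⟩ := W.hensel v (p.map (algebraMap k (v.adicCompletion k))) (fun i => by
    rw [coeff_map, valued_alg]; exact hint i) (algebraMap k _ x) (by rw [valued_alg]; exact hx1) (by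
    rw [derivative_map, eval_map_algebraMap, eval_map_algebraMap, aeval_algebraMap_apply,
      aeval_algebraMap_apply, valued_alg, valued_alg]
    simp only [coe_aeval_eq_eval]
    rw [hx3, one_pow]
    exact hx2)
  exact ⟨y, by rw [← hy, eval_map_algebraMap]⟩

/-- The basis `b` is good at `v`: structure constants and coordinates of `1` are integral,
the discriminant is a unit. -/
structure GoodB (b : Basis (Fin 3) k F) (v : HeightOneSpectrum (𝓞 k)) : Prop where
  mul : ∀ i j l, v.valuation k (b.repr (b i * b j) l) ≤ 1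
  one : ∀ l, v.valuation k (b.repr 1 l) ≤ 1
  disc : v.valuation k (Algebra.traceMatrix k b).det = 1

theorem goodB_finite (b : Basis (Fin 3) k F) :
    {v : HeightOneSpectrum (𝓞 k) | ¬ GoodB b v}.Finite := by
  have hd : (Algebra.traceMatrix k b).det ≠ 0 := by
    rw [← Algebra.discr_def]
    exact Algebra.discr_not_zero_of_basis k b
  let A : Set (HeightOneSpectrum (𝓞 k)) := ⋃ (i : Fin 3) (j : Fin 3) (l : Fin 3),
    HeightOneSpectrum.Support (𝓞 k) (b.repr (b i * b j) l)
  let B : Set (HeightOneSpectrum (𝓞 k)) := ⋃ (l : Fin 3),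
    HeightOneSpectrum.Support (𝓞 k) (b.repr 1 l)
  let C : Set (HeightOneSpectrum (𝓞 k)) := HeightOneSpectrum.Support (𝓞 k)
      (Algebra.traceMatrix k b).det ∪
    HeightOneSpectrum.Support (𝓞 k) (Algebra.traceMatrix k b).det⁻¹
  have hA : A.Finite := Set.finite_iUnion fun i => Set.finite_iUnion fun j =>
    Set.finite_iUnion fun l => HeightOneSpectrum.Support.finite _ _
  have hB : B.Finite := Set.finite_iUnion fun l => HeightOneSpectrum.Support.finite _ _
  have hC : C.Finite := (HeightOneSpectrum.Support.finite _ _).union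
    (HeightOneSpectrum.Support.finite _ _)
  refine ((hA.union hB).union hC).subset fun v hv => ?_
  by_contra hcon
  apply hv
  simp only [Set.mem_union, not_or] at hcon
  obtain ⟨⟨h1, h2⟩, h3⟩ := hcon
  refine ⟨fun i j l => ?_, fun l => ?_, ?_⟩
  · by_contra h
    apply h1
    simp only [A, Set.mem_iUnion]
    exact ⟨i, j, l, not_le.mp h⟩
  · by_contra h
    apply h2
    simp only [B, Set.mem_iUnion]
    exact ⟨l, not_le.mp h⟩
  · simp only [C, Set.mem_union, not_or] at h3
    obtain ⟨h4, h5⟩ := h3
    have h6 : v.valuation k (Algebra.traceMatrix k b).det ≤ 1 := not_lt.mp h4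
    have h7 : v.valuation k (Algebra.traceMatrix k b).det⁻¹ ≤ 1 := not_lt.mp h5
    refine le_antisymm h6 ?_
    rw [map_inv₀] at h7
    have h8 : v.valuation k (Algebra.traceMatrix k b).det ≠ 0 :=
      (Valuation.ne_zero_iff _).mpr hd
    exact (inv_le_one₀ (zero_lt_iff.mpr h8)).mp h7


section unit

variable {v : HeightOneSpectrum (𝓞 k)}

theorem adjugate_le {M : Matrix (Fin 3) (Fin 3) k} (hM : ∀ i j, v.valuation k (M i j) ≤ 1)
    (i j : Fin 3) : v.valuation k (M.adjugate i j) ≤ 1 := by
  set O := (v.valuation k).valuationSubring with hO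
  obtain ⟨N, hN⟩ : ∃ N : Matrix (Fin 3) (Fin 3) O, (algebraMap O k).mapMatrix N = M :=
    ⟨Matrix.of fun i j => ⟨M i j, hM i j⟩, by ext i j; rfl⟩
  rw [← hN, ← RingHom.map_adjugate]
  exact (N.adjugate i j).2

theorem lmm_le {b : Basis (Fin 3) k F} (hb : GoodB b v) {x : F}
    (hx : ∀ l, v.valuation k (b.repr x l) ≤ 1) (i j : Fin 3) :
    v.valuation k (Algebra.leftMulMatrix b x i j) ≤ 1 := by
  rw [Algebra.leftMulMatrix_eq_repr_mul]
  have h1 : x * b j = ∑ l, b.repr x l • (b l * b j) := by
    conv_lhs => rw [← b.sum_repr x, Finset.sum_mul]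
    simp only [smul_mul_assoc]
  rw [h1, map_sum, Finset.sum_apply']
  refine Valuation.map_sum_le _ fun l _ => ?_
  rw [map_smul, Finsupp.smul_apply, smul_eq_mul, map_mul]
  exact mul_le_one' (hx _) (hb.mul _ _ _)

theorem basis_le {b : Basis (Fin 3) k F} (j l : Fin 3) : v.valuation k (b.repr (b j) l) ≤ 1 := by
  rw [b.repr_self_apply]
  split_ifs <;> simp

/-- An integral element which is nilpotent modulo `v` vanishes modulo `v`. -/
theorem coord_lt {b : Basis (Fin 3) k F} (hb : GoodB b v) {x : F}
    (hx : ∀ l, v.valuation k (b.repr x l) ≤ 1)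
    (h : ∀ i < 3, v.valuation k ((Algebra.leftMulMatrix b x).charpoly.coeff i) < 1) (j : Fin 3) :
    v.valuation k (b.repr x j) < 1 := by
  have h1 : ∀ l, v.valuation k (Algebra.trace k F (x * b l)) < 1 := by
    intro l
    rw [Algebra.trace_eq_matrix_trace b]
    refine trace_lt v _ (fun i j => ?_) (fun i j => ?_)
    · rw [map_mul]
      exact mul_le_one (lmm_le hb hx) (lmm_le hb (basis_le l)) i j
    · rw [← map_pow, mul_pow, map_mul, map_pow, map_pow]
      exact mul_lt_one (cube_lt (lmm_le hb hx) h) (pow_le_one (lmm_le hb (basis_le l)) 3) i j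
  set τ := Algebra.traceMatrix k b with hτ
  have hτint : ∀ i j, v.valuation k (τ i j) ≤ 1 := by
    intro i j
    rw [hτ, Algebra.traceMatrix_apply, Algebra.traceForm_apply, Algebra.trace_eq_matrix_trace b,
      Matrix.trace]
    refine Valuation.map_sum_le _ fun l _ => ?_
    exact lmm_le hb (hb.mul i j) l l
  have h2 : ∀ l, Algebra.trace k F (x * b l) = Matrix.vecMul (b.repr x) τ l := by
    intro l
    rw [Matrix.vecMul, dotProduct]
    conv_lhs => rw [← b.sum_repr x, Finset.sum_mul, map_sum]
    refine Finset.sum_congr rfl fun i _ => ?_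
    rw [smul_mul_assoc, map_smul, smul_eq_mul]
    rfl
  have h3 : Matrix.vecMul (Matrix.vecMul (b.repr x) τ) τ.adjugate = τ.det • (b.repr x : Fin 3 → k) := by
    rw [Matrix.vecMul_vecMul, Matrix.mul_adjugate, Matrix.vecMul_smul, Matrix.vecMul_one]
  have h4 := congrFun h3 j
  have h5 : v.valuation k (Matrix.vecMul (Matrix.vecMul (b.repr x) τ) τ.adjugate j) < 1 := by
    rw [Matrix.vecMul, dotProduct]
    refine Valuation.map_sum_lt _ one_ne_zero fun l _ => ?_
    rw [map_mul, ← h2]
    exact mul_lt_one_of_lt_of_le (h1 l) (adjugate_le hτint _ _)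
  rw [h4, Pi.smul_apply, smul_eq_mul, map_mul, hb.disc, one_mul] at h5
  exact h5

/-- The norm of a primitive element is a unit at a good place without a point. -/
theorem norm_unit (hF : finrank k F = 3) {b : Basis (Fin 3) k F} (hb : GoodB b v)
    (hno : ¬ Nonempty (F →ₐ[k] v.adicCompletion k)) {x : F}
    (hx : ∀ l, v.valuation k (b.repr x l) ≤ 1) {j : Fin 3}
    (hj : 1 ≤ v.valuation k (b.repr x j)) : v.valuation k (Algebra.norm k x) = 1 := by
  set P := (Algebra.leftMulMatrix b x).charpoly with hP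
  have hle : ∀ i, v.valuation k (P.coeff i) ≤ 1 := coeff_charpoly_le v _ (lmm_le hb hx)
  have hN : Algebra.norm k x = -P.coeff 0 := by
    rw [Algebra.norm_eq_matrix_det b, Matrix.det_eq_sign_charpoly_coeff]
    simp [hP]
    norm_num
  rw [hN, Valuation.map_neg]
  by_contra hne
  have h0 : v.valuation k (P.coeff 0) < 1 := lt_of_le_of_ne (hle 0) hne
  by_cases hall : ∀ i < 3, v.valuation k (P.coeff i) < 1
  · exact absurd (coord_lt hb hx hall j) (not_lt.mpr hj)
  have h12 : v.valuation k (P.coeff 1) = 1 ∨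
      (v.valuation k (P.coeff 1) < 1 ∧ v.valuation k (P.coeff 2) = 1) := by
    by_contra hcon
    push Not at hcon
    apply hall
    have h1 : v.valuation k (P.coeff 1) < 1 := lt_of_le_of_ne (hle 1) hcon.1
    have h2 : v.valuation k (P.coeff 2) < 1 := lt_of_le_of_ne (hle 2) (hcon.2 h1)
    intro i hi
    interval_cases i
    · exact h0
    · exact h1
    · exact h2
  obtain ⟨y, hy⟩ := exists_root v (charpoly_eq _) h0 (hle 1) (hle 2) h12
  by_cases hx1 : x ∈ (algebraMap k F).range
  · obtain ⟨c, rfl⟩ := hx1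
    rw [Algebra.norm_algebraMap, hF] at hN
    have h3 : v.valuation k c < 1 := by
      have h4 : v.valuation k c ^ 3 < 1 := by
        rw [← map_pow, hN, Valuation.map_neg]; exact h0
      by_contra h5
      push Not at h5
      exact absurd h4 (not_lt.mpr (one_le_pow₀ h5))
    have h4 : b.repr (algebraMap k F c) j = c * b.repr 1 j := by
      rw [Algebra.algebraMap_eq_smul_one, map_smul, Finsupp.smul_apply, smul_eq_mul]
    rw [h4, map_mul] at hj
    exact absurd (mul_lt_one_of_lt_of_le h3 (hb.one j)) (not_lt.mpr hj)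
  · exact hno (point_of_root hF hx1 b hy)

end unit

end Vale.Agent.P011.H672
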